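import Mathlib
import Vale.Agent.helper6.L.Assemble

set_option autoImplicit false

open Finset

namespace Vale.Agent.Results.P249.SpannerSampling

open Vale.Agent.helper6.L
open Classical

noncomputable section

private lemma clog_bound {n : ℕ} (hn : 2 ≤ n) : ((Nat.clog 2 n : ℕ) : ℝ) ≤ 3 * Real.log n := by
  have hn1 : 1 < n := by omega
  have hpos : 0 < Nat.clog 2 n := Nat.clog_pos (by norm_num) hn1
  have hlt : 2 ^ (Nat.clog 2 n).pred < n := Nat.pow_pred_clog_lt_self (by norm_num) hn1
  set R := Nat.clog 2 n with hR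
  have hlog2 : (2 : ℝ) / 3 < Real.log 2 := by
    have := Real.log_two_gt_d9
    norm_num at this ⊢
    linarith
  have hnR : (1 : ℝ) < n := by exact_mod_cast hn1
  have hlt' : ((2 : ℝ) ^ R.pred) < n := by exact_mod_cast hlt
  have h1 : (R.pred : ℝ) * Real.log 2 < Real.log n := by
    have := Real.log_lt_log (by positivity) hlt'
    rwa [Real.log_pow] at this
  have h2 : (R : ℝ) = R.pred + 1 := by
    have : R = R.pred + 1 := (Nat.succ_pred_eq_of_pos hpos).symm
    exact_mod_cast this
  have h3 : Real.log 2 ≤ Real.log n := Real.log_le_log (by norm_num) (by exact_mod_cast hn)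
  have h4 : (R : ℝ) * Real.log 2 ≤ 2 * Real.log n := by
    rw [h2]
    nlinarith
  have h5 : (0 : ℝ) ≤ R := Nat.cast_nonneg R
  have h6 : (R : ℝ) * (2 / 3) ≤ (R : ℝ) * Real.log 2 := mul_le_mul_of_nonneg_left hlog2.le h5
  linarith

private lemma lpNorm_zero {k : ℕ} {p : ℝ} (hp : 1 ≤ p) : lpNorm p (0 : Fin k → ℝ) = 0 := by
  have hp0 : p ≠ 0 := by linarith
  simp [lpNorm, Real.zero_rpow hp0, Real.zero_rpow (inv_ne_zero hp0)]

private lemma eq_of_wDist_zero {n m : ℕ} {x : Fin n → Fin m → ℝ} {p : ℝ} (hp : 1 ≤ p)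
    {u v : Fin n} (h : wDist x p u v = 0) : x u = x v := by
  have hp0 : p ≠ 0 := by linarith
  funext i
  have h1 := (sum_eq_zero_iff_of_nonneg
    (fun j _ => Real.rpow_nonneg (abs_nonneg _) p)).mp h i (mem_univ i)
  have h2 : |x u i - x v i| = 0 := by
    rcases (Real.rpow_eq_zero_iff_of_nonneg (abs_nonneg _)).mp h1 with ⟨h3, _⟩
    exact h3
  linarith [abs_eq_zero.mp h2]

private lemma wDist_nonneg {n m : ℕ} (x : Fin n → Fin m → ℝ) (p : ℝ) (u v : Fin n) :
    0 ≤ wDist x p u v := sum_nonneg (fun _ _ => Real.rpow_nonneg (abs_nonneg _) p)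

private lemma wDist_self {n m : ℕ} (x : Fin n → Fin m → ℝ) {p : ℝ} (hp : 1 ≤ p) (u : Fin n) :
    wDist x p u u = 0 := by
  have hp0 : p ≠ 0 := by linarith
  simp [wDist, Real.zero_rpow hp0]

/-- **Near-linear dimension reduction in `ℓ_p`, for every `p ≥ 1`.**

For every `p ≥ 1` and every `D > 1` there is a constant `C` such that for all `n ≥ 2`, all
`d ≥ C n (log n)^(p+1)` and all `m`, every family of `n` points of `ℓ_p^m` is mapped into `ℓ_p^d`
with distortion at most `D`, by a linear map `A`. -/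
theorem result {p D : ℝ} (hp : 1 ≤ p) (hD : 1 < D) :
    ∃ C : ℝ, 0 < C ∧ ∀ n : ℕ, 2 ≤ n → ∀ d : ℕ, C * n * Real.log n ^ (p + 1) ≤ d →
      ∀ (m : ℕ) (x : Fin n → Fin m → ℝ),
        ∃ (A : Matrix (Fin d) (Fin m) ℝ) (s : ℝ), 0 < s ∧ ∀ i j,
          s * lpNorm p (x i - x j) ≤ lpNorm p (A.mulVec (x i) - A.mulVec (x j)) ∧
          lpNorm p (A.mulVec (x i) - A.mulVec (x j)) ≤ D * s * lpNorm p (x i - x j) := by
  have hp0' : 0 < p := by linarith
  have hp0 : p ≠ 0 := hp0'.ne'
  have hinv0 : 0 < 1 / p := by positivity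
  -- the deviation parameter
  set η : ℝ := (D - 1) / (D + 1) with hη
  have hD1 : 0 < D + 1 := by linarith
  have hη0 : 0 < η := div_pos (by linarith) hD1
  have hη1 : η < 1 := (div_lt_one hD1).mpr (by linarith)
  have hηD : 1 + η = D * (1 - η) := by
    rw [hη]
    field_simp
    ring
  set k1 : ℝ := (1 + η) * Real.log (1 + η) - η with hk1
  set k2 : ℝ := (1 - η) * Real.log (1 - η) + η with hk2
  have hk1pos : 0 < k1 := kap_up_pos hη0
  have hk2pos : 0 < k2 := kap_low_pos hη0 hη1
  set kap : ℝ := min k1 k2 with hkap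
  have hkappos : 0 < kap := lt_min hk1pos hk2pos
  have h6 : (0 : ℝ) < 6 ^ (p - 1) := Real.rpow_pos_of_pos (by norm_num) _
  refine ⟨12 * 6 ^ (p - 1) / kap, by positivity, ?_⟩
  intro n hn d hd m x
  have hnR : (2 : ℝ) ≤ n := by exact_mod_cast hn
  have hnpos : (0 : ℝ) < n := by linarith
  set L : ℝ := Real.log n with hL
  have hLpos : 0 < L := Real.log_pos (by linarith)
  have hCpos : 0 < 12 * 6 ^ (p - 1) / kap * n * L ^ (p + 1) := by
    have : 0 < L ^ (p + 1) := Real.rpow_pos_of_pos hLpos _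
    positivity
  have hdpos : (0 : ℝ) < d := lt_of_lt_of_le hCpos hd
  set R := Nat.clog 2 n with hR
  have hR1 : 1 ≤ R := Nat.clog_pos (by norm_num) (by omega)
  have hRn : n ≤ 2 ^ R := Nat.le_pow_clog (by norm_num) n
  have hRL : (R : ℝ) ≤ 3 * L := clog_bound hn
  obtain ⟨G, hGcard, hGwalk⟩ := exists_spanner (wDist x p) (wDist_symm x p) R hR1
    (by simpa using hRn)
  have hGcard' : (G.edgeFinset.card : ℝ) ≤ n * R := by
    have : G.edgeFinset.card ≤ n * R := by simpa using hGcard
    exact_mod_cast this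
  set h := 2 * R with hh
  set S : ℝ := ∑ i, tau x p G h i with hS
  have hS0 : 0 ≤ S := sum_nonneg (fun i _ => tau_nonneg x p G h i)
  -- the size of `S`
  have hSle : S ≤ 6 ^ (p - 1) * 3 * n * L ^ p := by
    have hh6 : (h : ℝ) ≤ 6 * L := by
      rw [hh]
      push_cast
      linarith
    have h1 : (h : ℝ) ^ (p - 1) ≤ 6 ^ (p - 1) * L ^ (p - 1) := by
      rw [← Real.mul_rpow (by norm_num) hLpos.le]
      exact Real.rpow_le_rpow (Nat.cast_nonneg _) hh6 (by linarith)
    have h2 : (G.edgeFinset.card : ℝ) ≤ n * (3 * L) :=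
      hGcard'.trans (mul_le_mul_of_nonneg_left hRL hnpos.le)
    have hLp : L ^ (p - 1) * L = L ^ p := by
      rw [← Real.rpow_add_one hLpos.ne']
      congr 1
      ring
    calc S ≤ (h : ℝ) ^ (p - 1) * G.edgeFinset.card := sum_tau_le x p G h
      _ ≤ (6 ^ (p - 1) * L ^ (p - 1)) * (n * (3 * L)) :=
          mul_le_mul h1 h2 (Nat.cast_nonneg _) (by positivity)
      _ = 6 ^ (p - 1) * 3 * n * (L ^ (p - 1) * L) := by ring
      _ = _ := by rw [hLp]
  -- the mass of a pair
  have hmass : ∀ u v : Fin n, 0 < wDist x p u v → ∀ i,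
      |x u i - x v i| ^ p / wDist x p u v ≤ tau x p G h i := by
    intro u v huv i
    have hne : u ≠ v := by
      rintro rfl
      rw [wDist_self x hp] at huv
      exact lt_irrefl _ huv
    obtain ⟨w, hw1, hw2⟩ := hGwalk u v hne
    exact mass_le_tau x p G h hp huv w hw1 hw2 i
  have hmass1 : ∀ u v : Fin n, 0 < wDist x p u v →
      ∑ i, |x u i - x v i| ^ p / wDist x p u v = 1 := by
    intro u v huv
    rw [← sum_div]
    exact div_self huv.ne'
  by_cases hSz : S = 0
  · -- all points coincide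
    have htau : ∀ i, tau x p G h i = 0 := by
      intro i
      exact (sum_eq_zero_iff_of_nonneg (fun i _ => tau_nonneg x p G h i)).mp hSz i (mem_univ i)
    have hall : ∀ u v : Fin n, x u = x v := by
      intro u v
      apply eq_of_wDist_zero hp
      by_contra hne
      have hpos : 0 < wDist x p u v := lt_of_le_of_ne (wDist_nonneg x p u v) (Ne.symm hne)
      have h1 := hmass1 u v hpos
      have h2 : ∑ i, |x u i - x v i| ^ p / wDist x p u v ≤ ∑ i, (0 : ℝ) :=
        sum_le_sum (fun i _ => by rw [← htau i]; exact hmass u v hpos i)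
      simp only [sum_const_zero] at h2
      linarith
    refine ⟨0, 1, one_pos, ?_⟩
    intro i j
    have h0 : x i - x j = 0 := by rw [hall i j]; simp
    have h1 : (0 : Matrix (Fin d) (Fin m) ℝ).mulVec (x i) - (0 : Matrix (Fin d) (Fin m) ℝ).mulVec (x j)
        = 0 := by simp
    rw [h0, h1, lpNorm_zero hp, lpNorm_zero hp]
    simp
  have hSpos : 0 < S := lt_of_le_of_ne hS0 (Ne.symm hSz)
  -- the sampling distribution
  set q : Fin m → ℝ := fun i => tau x p G h i / S with hq
  have hq0 : ∀ i, 0 ≤ q i := fun i => div_nonneg (tau_nonneg x p G h i) hS0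
  have hq1 : ∑ i, q i = 1 := by
    simp only [hq]
    rw [← sum_div]
    exact div_self hSz
  have hSq : ∀ i, S * q i = tau x p G h i := fun i => by
    simp only [hq]
    field_simp
  let κ := {c : Fin n × Fin n // 0 < wDist x p c.1 c.2}
  let a : κ → Fin m → ℝ := fun c i => |x c.1.1 i - x c.1.2 i| ^ p / wDist x p c.1.1 c.1.2
  have ha0 : ∀ c i, 0 ≤ a c i := fun c i =>
    div_nonneg (Real.rpow_nonneg (abs_nonneg _) p) c.2.le
  have hatau : ∀ c i, a c i ≤ S * q i := fun c i => by
    rw [hSq]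
    exact hmass _ _ c.2 i
  let z : κ → Fin m → ℝ := fun c i => a c i / q i
  have hz0 : ∀ c i, 0 ≤ z c i := fun c i => div_nonneg (ha0 c i) (hq0 i)
  have hz1 : ∀ c i, z c i ≤ S := by
    intro c i
    rcases (hq0 i).lt_or_eq with hqi | hqi
    · exact (div_le_iff₀ hqi).mpr (hatau c i)
    · simp only [z, ← hqi, div_zero]
      exact hS0
  have hqz : ∀ c i, q i * z c i = a c i := by
    intro c i
    rcases (hq0 i).lt_or_eq with hqi | hqi
    · simp only [z]
      field_simp
    · have : a c i = 0 := by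
        have := hatau c i
        rw [← hqi, mul_zero] at this
        exact le_antisymm this (ha0 c i)
      simp [z, this]
  have hz : ∀ c, ∑ i, q i * z c i = 1 := by
    intro c
    simp only [hqz]
    exact hmass1 _ _ c.2
  -- the union bound
  have hkap1 : kap ≤ k1 := min_le_left _ _
  have hkap2 : kap ≤ k2 := min_le_right _ _
  have hunion : 2 * (Fintype.card κ : ℝ) * Real.exp (-(d * kap / S)) < 1 := by
    have hcard : (Fintype.card κ : ℝ) ≤ n * n := by
      have : Fintype.card κ ≤ Fintype.card (Fin n × Fin n) := Fintype.card_subtype_le _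
      simp only [Fintype.card_prod, Fintype.card_fin] at this
      exact_mod_cast this
    set M : ℝ := 2 * (n * n) + 1 with hM
    have hMpos : 0 < M := by positivity
    have hMle : M ≤ (n : ℝ) ^ 4 := by
      have : (4 : ℝ) ≤ n * n := by nlinarith
      have h2 : (n : ℝ) ^ 4 = (n * n) * (n * n) := by ring
      rw [h2, hM]
      nlinarith
    have hlogM : Real.log M ≤ 4 * L := by
      have := Real.log_le_log hMpos hMle
      rw [Real.log_pow] at this
      simpa using this
    have hLp1 : L ^ p * L = L ^ (p + 1) := (Real.rpow_add_one hLpos.ne' p).symm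
    have hmain : Real.log M ≤ d * kap / S := by
      rw [le_div_iff₀ hSpos]
      have hL1 : 0 ≤ L ^ p := (Real.rpow_pos_of_pos hLpos _).le
      have h1 : Real.log M * S ≤ 4 * L * (6 ^ (p - 1) * 3 * n * L ^ p) := by
        have hlogM0 : 0 ≤ Real.log M := by
          apply Real.log_nonneg
          rw [hM]
          nlinarith
        calc Real.log M * S ≤ (4 * L) * S := mul_le_mul_of_nonneg_right hlogM hS0
          _ ≤ _ := mul_le_mul_of_nonneg_left hSle (by positivity)
      have h2 : 4 * L * (6 ^ (p - 1) * 3 * n * L ^ p)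
          = kap * (12 * 6 ^ (p - 1) / kap * n * L ^ (p + 1)) := by
        rw [← hLp1]
        field_simp
        ring
      have h3 : kap * (12 * 6 ^ (p - 1) / kap * n * L ^ (p + 1)) ≤ kap * d :=
        mul_le_mul_of_nonneg_left hd hkappos.le
      calc Real.log M * S ≤ _ := h1
        _ = _ := h2
        _ ≤ kap * d := h3
        _ = d * kap := mul_comm _ _
    have hexp : Real.exp (-(d * kap / S)) ≤ M⁻¹ := by
      rw [← Real.exp_log (inv_pos.mpr hMpos), Real.log_inv]
      exact Real.exp_le_exp.mpr (neg_le_neg hmain)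
    calc 2 * (Fintype.card κ : ℝ) * Real.exp (-(d * kap / S))
        ≤ 2 * (n * n) * M⁻¹ := by
          apply mul_le_mul _ hexp (Real.exp_pos _).le (by positivity)
          exact mul_le_mul_of_nonneg_left hcard (by norm_num)
      _ < 1 := by
          rw [← div_eq_mul_inv, div_lt_one hMpos, hM]
          linarith
  obtain ⟨I, hIq, hIz⟩ := exists_sample q z S η kap d hSpos hq0 hq1 hz0 hz1 hz hη0 hη1 hkap1 hkap2
    hunion
  -- the map
  let c : Fin d → ℝ := fun t => ((d : ℝ) * q (I t)) ^ (-(1 / p))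
  have hdq : ∀ t, 0 < (d : ℝ) * q (I t) := fun t => mul_pos hdpos (hIq t)
  have hc0 : ∀ t, 0 < c t := fun t => Real.rpow_pos_of_pos (hdq t) _
  have hcp : ∀ t, c t ^ p = ((d : ℝ) * q (I t))⁻¹ := by
    intro t
    simp only [c]
    rw [← Real.rpow_mul (hdq t).le]
    have : -(1 / p) * p = -1 := by field_simp
    rw [this, Real.rpow_neg_one]
  let A : Matrix (Fin d) (Fin m) ℝ := Matrix.of fun t k => if k = I t then c t else 0
  have hA : ∀ (v : Fin m → ℝ) t, A.mulVec v t = c t * v (I t) := by
    intro v t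
    simp [A, Matrix.mulVec, dotProduct, ite_mul]
  set s : ℝ := (1 - η) ^ (1 / p) with hs
  have hη1' : 0 < 1 - η := by linarith
  have hspos : 0 < s := Real.rpow_pos_of_pos hη1' _
  refine ⟨A, s, hspos, ?_⟩
  intro i j
  by_cases hw : 0 < wDist x p i j
  · -- the generic case
    let c0 : κ := ⟨(i, j), hw⟩
    obtain ⟨hlo, hhi⟩ := hIz c0
    set w := wDist x p i j with hwdef
    have hnorm : lpNorm p (x i - x j) = w ^ (1 / p) := rfl
    set P : ℝ := ∑ t, |(A.mulVec (x i) - A.mulVec (x j)) t| ^ p with hP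
    have hnorm2 : lpNorm p (A.mulVec (x i) - A.mulVec (x j)) = P ^ (1 / p) := rfl
    have hPeq : P = (w / d) * ∑ t, z c0 (I t) := by
      rw [hP, mul_sum]
      refine sum_congr rfl (fun t _ => ?_)
      have h1 : (A.mulVec (x i) - A.mulVec (x j)) t = c t * (x i (I t) - x j (I t)) := by
        rw [Pi.sub_apply, hA, hA]
        ring
      rw [h1, abs_mul, abs_of_pos (hc0 t), Real.mul_rpow (hc0 t).le (abs_nonneg _), hcp]
      have hq' : q (I t) ≠ 0 := (hIq t).ne'
      have hd' : (d : ℝ) ≠ 0 := hdpos.ne'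
      have hw' : w ≠ 0 := hw.ne'
      simp only [z, a]
      rw [← hwdef]
      field_simp
      rfl
    have hwd : 0 < w / d := div_pos hw hdpos
    have hPlo : (1 - η) * w ≤ P := by
      rw [hPeq]
      calc (1 - η) * w = (w / d) * ((1 - η) * d) := by
            field_simp
        _ ≤ _ := mul_le_mul_of_nonneg_left hlo hwd.le
    have hPhi : P ≤ (1 + η) * w := by
      rw [hPeq]
      calc _ ≤ (w / d) * ((1 + η) * d) := mul_le_mul_of_nonneg_left hhi hwd.le
        _ = _ := by field_simp
    have hPnn : 0 ≤ P := sum_nonneg (fun _ _ => Real.rpow_nonneg (abs_nonneg _) p)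
    rw [hnorm, hnorm2]
    constructor
    · rw [hs, ← Real.mul_rpow hη1'.le hw.le]
      exact Real.rpow_le_rpow (by positivity) hPlo hinv0.le
    · calc P ^ (1 / p) ≤ ((1 + η) * w) ^ (1 / p) :=
            Real.rpow_le_rpow hPnn hPhi hinv0.le
        _ = (1 + η) ^ (1 / p) * w ^ (1 / p) :=
            Real.mul_rpow (by linarith) hw.le
        _ = (D ^ (1 / p) * s) * w ^ (1 / p) := by
            rw [hηD, Real.mul_rpow (by linarith) hη1'.le]
        _ ≤ D * s * w ^ (1 / p) := by
            apply mul_le_mul_of_nonneg_right _ (Real.rpow_nonneg hw.le _)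
            apply mul_le_mul_of_nonneg_right _ hspos.le
            calc D ^ (1 / p) ≤ D ^ (1 : ℝ) :=
                  Real.rpow_le_rpow_of_exponent_le hD.le ((div_le_one hp0').mpr hp)
              _ = D := Real.rpow_one D
  · -- coinciding points
    have hw0 : wDist x p i j = 0 := le_antisymm (not_lt.mp hw) (wDist_nonneg x p i j)
    have heq := eq_of_wDist_zero hp hw0
    have h0 : x i - x j = 0 := by rw [heq]; simp
    have h1 : A.mulVec (x i) - A.mulVec (x j) = 0 := by rw [heq]; simp
    rw [h0, h1, lpNorm_zero hp, lpNorm_zero hp]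
    simp

end

end Vale.Agent.Results.P249.SpannerSampling
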